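import Vale.Agent.P253Z.Smooth.Moll

/-!
# P253Z: smoothing of continuous functions with bounds for the Levi form and the gradient
-/

open scoped ContDiff ComplexOrder Topology Matrix
open Set Filter MeasureTheory Metric

noncomputable section

namespace Vale.Agent.P253Z.Smooth

open Vale.Agent.P272.K

variable {n : ℕ}

theorem hq_pull (J A : Matrix (Fin n) (Fin n) ℂ) (ξ : Cm n) :
    hq (J.transpose * A * J.map (starRingEnd ℂ)) ξ = hq A (J.mulVec ξ) := by
  have h1 : star (J.mulVec ξ) = (J.map (starRingEnd ℂ)).mulVec (star ξ) := by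
    ext i
    simp [Matrix.mulVec, dotProduct]
  rw [hq, hq, h1, ← Matrix.mulVec_mulVec, ← Matrix.mulVec_mulVec, Matrix.dotProduct_mulVec,
    Matrix.vecMul_transpose]

theorem hasDerivAt_sc {δ : ℝ} (hδ : 0 < δ) (t : ℝ) :
    HasDerivAt (fun t => δ * Gc (t / δ)) (Real.smoothTransition (t / δ)) t := by
  have h := ((hasDerivAt_Gc (t / δ)).comp t ((hasDerivAt_id t).div_const δ)).const_mul δ
  refine h.congr_deriv ?_
  field_simp

theorem contDiffAt_mx {a b : Cm n → ℝ} {z : Cm n} (δ : ℝ) (ha : ContDiffAt ℝ ∞ a z)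
    (hb : ContDiffAt ℝ ∞ b z) : ContDiffAt ℝ ∞ (fun w => mx δ (a w) (b w)) z :=
  ha.add (contDiffAt_const.mul (contDiff_Gc.contDiffAt.comp z ((hb.sub ha).div_const δ)))

theorem hq_mx {a b : Cm n → ℝ} {z : Cm n} {δ : ℝ} (hδ : 0 < δ) (ha : ContDiffAt ℝ ∞ a z)
    (hb : ContDiffAt ℝ ∞ b z) {ξ : Cm n} {c : ℝ} (h1 : c ≤ hq (cHess a z) ξ)
    (h2 : c ≤ hq (cHess b z) ξ) : c ≤ hq (cHess (fun w => mx δ (a w) (b w)) z) ξ := by
  have ha2 := ha.of_le two_le_infty
  have hb2 := hb.of_le two_le_infty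
  set s := Real.smoothTransition ((b z - a z) / δ) with hs
  set s' := deriv Real.smoothTransition ((b z - a z) / δ) / δ with hs'
  have hd : HasDerivAt (fun t => Real.smoothTransition (t / δ)) s' (b z - a z) := by
    have h3 : DifferentiableAt ℝ Real.smoothTransition ((b z - a z) / δ) :=
      (Real.smoothTransition.contDiff (n := 1)).differentiable one_ne_zero _
    have h := h3.hasDerivAt.comp (b z - a z) ((hasDerivAt_id (b z - a z)).div_const δ)
    refine h.congr_deriv ?_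
    rw [hs']
    ring
  have hG : ContDiffAt ℝ 2 (fun w => δ * Gc ((b w - a w) / δ)) z :=
    contDiffAt_const.mul ((contDiff_Gc.of_le two_le_infty).contDiffAt.comp z
      ((hb2.sub ha2).div_const δ))
  have h3 : cHess (fun w => δ * Gc ((b w - a w) / δ)) z =
      (s : ℂ) • (cHess b z - cHess a z) + (s' : ℂ) • gg (fun w => b w - a w) z := by
    ext j k
    rw [C2.cHess_comp (ψ := fun t => δ * Gc (t / δ)) (u := fun w => b w - a w)
      (Eventually.of_forall (hasDerivAt_sc hδ)) hd (hb2.sub ha2), C2.cHess_sub hb2 ha2,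
      C2.dzb_real k ((hb2.sub ha2).differentiableAt (by simp))]
    rfl
  have h4 : cHess (fun w => mx δ (a w) (b w)) z = _ := C2.cHess_add ha2 hG
  rw [h4, h3, hq_add, hq_add, hq_smul, hq_smul, hq_sub]
  have h5 : 0 ≤ s := Real.smoothTransition.nonneg _
  have h6 : s ≤ 1 := Real.smoothTransition.le_one _
  have h7 : 0 ≤ s' := div_nonneg Real.smoothTransition.monotone.deriv_nonneg hδ.le
  have h8 := mul_nonneg h7 (hq_nonneg (gg_psd (fun w => b w - a w) z) ξ)
  nlinarith

theorem fderiv_mx {a b : Cm n → ℝ} {z : Cm n} {δ : ℝ} (hδ : 0 < δ) (ha : ContDiffAt ℝ ∞ a z)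
    (hb : ContDiffAt ℝ ∞ b z) {ξ : Cm n} {c : ℝ} (h1 : fderiv ℝ a z ξ ≤ c)
    (h2 : fderiv ℝ b z ξ ≤ c) : fderiv ℝ (fun w => mx δ (a w) (b w)) z ξ ≤ c := by
  have ha' := (ha.differentiableAt (by simp)).hasFDerivAt
  have hb' := (hb.differentiableAt (by simp)).hasFDerivAt
  have h3 := ha'.add ((hasDerivAt_sc hδ (b z - a z)).comp_hasFDerivAt z (hb'.sub ha'))
  have h4 : fderiv ℝ (fun w => mx δ (a w) (b w)) z = _ := h3.fderiv
  rw [h4]
  simp only [_root_.add_apply, _root_.smul_apply,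
    _root_.sub_apply, smul_eq_mul]
  have h5 := Real.smoothTransition.nonneg ((b z - a z) / δ)
  have h6 := Real.smoothTransition.le_one ((b z - a z) / δ)
  nlinarith

/-- holomorphic charts with a Hermitian metric -/
structure CA (n : ℕ) (M : Type) [TopologicalSpace M] where
  I : Type
  e : I → OpenPartialHomeomorph M (Cm n)
  w : I → Cm n → Matrix (Fin n) (Fin n) ℂ
  cover : ∀ x, ∃ i, x ∈ (e i).source
  wsm : ∀ i, ∀ z ∈ (e i).target, ∀ j k, ContDiffAt ℝ ∞ (fun z => w i z j k) z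
  wpos : ∀ i, ∀ z ∈ (e i).target, (w i z).PosDef
  hol : ∀ i j z, z ∈ (e i).target → (e i).symm z ∈ (e j).source →
    AnalyticAt ℂ (fun z => e j ((e i).symm z)) z
  wch : ∀ i j x, x ∈ (e i).source → x ∈ (e j).source →
    w i (e i x) = (jacM (e i) (e j) x).transpose * w j (e j x) *
      (jacM (e i) (e j) x).map (starRingEnd ℂ)

variable {M : Type} [TopologicalSpace M] (K : CA n M)

/-- smooth at `x`, with bounds for the Levi form and for the gradient, in the chart `i` -/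
structure GoodAt (P Q : Prop) (c : M → ℝ) (L : ℝ) (i : K.I) (f : M → ℝ) (x : M) : Prop where
  sm : ContDiffAt ℝ ∞ (fun z => f ((K.e i).symm z)) (K.e i x)
  levi : P → ∀ ξ, c x * hq (K.w i (K.e i x)) ξ ≤
    hq (cHess (fun z => f ((K.e i).symm z)) (K.e i x)) ξ
  lip : Q → ∀ ξ, fderiv ℝ (fun z => f ((K.e i).symm z)) (K.e i x) ξ ≤
    L * √(hq (K.w i (K.e i x)) ξ)

variable {K} {P Q : Prop} {c : M → ℝ} {L : ℝ}

theorem GoodAt.change {i j : K.I} {f : M → ℝ} {x : M} (h : GoodAt K P Q c L i f x)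
    (hi : x ∈ (K.e i).source) (hj : x ∈ (K.e j).source) : GoodAt K P Q c L j f x := by
  set τ : Cm n → Cm n := fun z => K.e i ((K.e j).symm z) with hτ
  have h1 : AnalyticAt ℂ τ (K.e j x) :=
    K.hol j i _ ((K.e j).map_source hj) (by rwa [(K.e j).left_inv hj])
  have h2 : τ (K.e j x) = K.e i x := by simp only [hτ, (K.e j).left_inv hj]
  have h3 : (fun z => f ((K.e i).symm (τ z))) =ᶠ[𝓝 (K.e j x)] fun z => f ((K.e j).symm z) := by
    filter_upwards [((K.e j).tendsto_symm hj).eventually ((K.e i).open_source.mem_nhds hi)]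
      with z hz
    simp only [hτ, (K.e i).left_inv hz]
  have h4 : ContDiffAt ℝ ∞ (fun z => f ((K.e i).symm z)) (τ (K.e j x)) := h2 ▸ h.sm
  have h5 : ∀ ξ, hq (K.w j (K.e j x)) ξ = hq (K.w i (K.e i x)) ((jmat τ (K.e j x)).mulVec ξ) :=
    fun ξ => by rw [K.wch j i x hj hi, hq_pull]; rfl
  refine ⟨(ContDiffAt.comp (g := fun z => f ((K.e i).symm z)) _ h4
    (h1.contDiffAt.restrict_scalars ℝ)).congr_of_eventuallyEq h3.symm, fun hP ξ => ?_,
    fun hQ ξ => ?_⟩
  · rw [← C2.cHess_congr h3, cHess_comp (f := fun z => f ((K.e i).symm z))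
      (h4.of_le two_le_infty) h1.contDiffAt, hq_pull, h5, h2]
    exact h.levi hP _
  · have h6 : fderiv ℝ τ (K.e j x) ξ = (jmat τ (K.e j x)).mulVec ξ := by
      rw [fderivR_of_holo h1.differentiableAt]
      exact funext fun p => jmat_mulVec h1.differentiableAt ξ p
    rw [← h3.fderiv_eq, fderiv_fun_comp (g := fun z => f ((K.e i).symm z)) _
      (h4.differentiableAt (by simp)) (h1.differentiableAt.restrictScalars ℝ),
      ContinuousLinearMap.comp_apply, h6, h5, h2]
    exact h.lip hQ _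

theorem isGerm_good : IsGerm fun f x => ∀ i, x ∈ (K.e i).source → GoodAt K P Q c L i f x where
  congr := fun f g x hfg h i hi => by
    have h1 : (fun z => f ((K.e i).symm z)) =ᶠ[𝓝 (K.e i x)] fun z => g ((K.e i).symm z) :=
      ((K.e i).tendsto_symm hi).eventually hfg
    exact ⟨(h i hi).sm.congr_of_eventuallyEq h1.symm,
      fun hP => C2.cHess_congr h1 ▸ (h i hi).levi hP,
      fun hQ => by rw [← h1.fderiv_eq]; exact (h i hi).lip hQ⟩
  add := fun f x a h i hi => by
    refine ⟨(h i hi).sm.add contDiffAt_const, fun hP => ?_, fun hQ => ?_⟩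
    · rw [C2.cHess_add ((h i hi).sm.of_le two_le_infty) contDiffAt_const, C2.cHess_const, add_zero]
      exact (h i hi).levi hP
    · rw [fderiv_add_const]
      exact (h i hi).lip hQ
  max := fun f g x δ hδ h h' i hi =>
    ⟨contDiffAt_mx δ (h i hi).sm (h' i hi).sm,
      fun hP ξ => hq_mx hδ (h i hi).sm (h' i hi).sm ((h i hi).levi hP ξ) ((h' i hi).levi hP ξ),
      fun hQ ξ => fderiv_mx hδ (h i hi).sm (h' i hi).sm ((h i hi).lip hQ ξ) ((h' i hi).lip hQ ξ)⟩

variable (K) in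
/-- the local hypotheses: a sub-mean value property with gain on affine discs, and a Lipschitz
bound, both for the form `w` frozen at the centre of a ball -/
def LocData (P Q : Prop) (u c : M → ℝ) (L : ℝ) : Prop :=
  ∀ x, ∃ i, x ∈ (K.e i).source ∧ ∃ r : ℝ, 0 < r ∧ ball (K.e i x) r ⊆ (K.e i).target ∧
    (P → ∀ z ξ : Cm n, (∀ ζ ∈ closedBall (0 : ℂ) 1, z + ζ • ξ ∈ ball (K.e i x) r) →
      u ((K.e i).symm z) + c x * hq (K.w i (K.e i x)) ξ ≤
        Real.circleAverage (fun ζ : ℂ => u ((K.e i).symm (z + ζ • ξ))) 0 1) ∧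
    (Q → ∀ a ∈ ball (K.e i x) r, ∀ b ∈ ball (K.e i x) r,
      u ((K.e i).symm b) - u ((K.e i).symm a) ≤ L * √(hq (K.w i (K.e i x)) (b - a)))

theorem exists_piece [T2Space M] {u c' : M → ℝ} {L' : ℝ} (hu : Continuous u) (hc' : Continuous c')
    (hcc : ∀ x, c' x < c x) (hL : 0 ≤ L) (hLL : L < L') (h : LocData K P Q u c L) (x : M)
    (N : Set M) (hN : N ∈ 𝓝 x) :
    ∃ U χ e₀, Piece (fun f x => ∀ i, x ∈ (K.e i).source → GoodAt K P Q c' L' i f x) u U χ e₀ ∧
      0 < χ x ∧ tsupport χ ⊆ N := by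
  classical
  obtain ⟨i, hx, r, hr, hrt, hP, hQ⟩ := h x
  set e := K.e i with he
  set z₀ := e x with hz₀
  have hz₀t : z₀ ∈ e.target := e.map_source hx
  have hw : ∀ j k, ContinuousAt (fun z => K.w i z j k) z₀ := fun j k =>
    (K.wsm i z₀ hz₀t j k).continuousAt
  have hwp : (K.w i z₀).PosDef := K.wpos i z₀ hz₀t
  have hcs : ContinuousAt (fun z => ((c' (e.symm z) : ℝ) : ℂ)) z₀ :=
    Complex.continuous_ofReal.continuousAt.comp
      (hc'.continuousAt.comp (e.continuousAt_symm hz₀t))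
  obtain ⟨l₁, hl₁, h₁⟩ := eventually_hq_lower (t := z₀)
    (A := fun z => ((c x : ℝ) : ℂ) • K.w i z₀ - ((c' (e.symm z) : ℝ) : ℂ) • K.w i z)
    (fun j k => continuousAt_const.sub (hcs.mul (hw j k))) (by
      simp only [hz₀, e.left_inv hx]
      rw [← sub_smul, ← Complex.ofReal_sub]
      exact hwp.smul (Complex.zero_lt_real.2 (sub_pos.2 (hcc x))))
  set L₁ := (L + L') / 2 with hL₁
  obtain ⟨l₂, hl₂, h₂⟩ := eventually_hq_lower (t := z₀)
    (A := fun z => ((L₁ ^ 2 : ℝ) : ℂ) • K.w i z - ((L ^ 2 : ℝ) : ℂ) • K.w i z₀)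
    (fun j k => (continuousAt_const.mul (hw j k)).sub continuousAt_const) (by
      rw [← sub_smul, ← Complex.ofReal_sub]
      exact hwp.smul (Complex.zero_lt_real.2 (by nlinarith)))
  obtain ⟨l₃, hl₃, h₃⟩ := eventually_hq_lower (t := z₀) (A := K.w i) hw hwp
  have h₄ : ∀ᶠ z in 𝓝 z₀, e.symm z ∈ N := (e.tendsto_symm hx).eventually hN
  obtain ⟨r₀, hr₀, hb⟩ := Metric.eventually_nhds_iff_ball.1 (h₁.and (h₂.and (h₃.and h₄)))
  set r₁ := min r₀ (r / 2) with hr₁
  have hr₁0 : 0 < r₁ := lt_min hr₀ (half_pos hr)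
  have hr₁r : r₁ < r := (min_le_right _ _).trans_lt (half_lt_self hr)
  have hb' : ball z₀ r₁ ⊆ ball z₀ r₀ := ball_subset_ball (min_le_left _ _)
  have hbt : ball z₀ r₁ ⊆ e.target := (ball_subset_ball hr₁r.le).trans hrt
  let β : ContDiffBump z₀ := ⟨r₁ / 4, r₁ / 2, by positivity, by linarith⟩
  have hβ : ContDiff ℝ ∞ β := β.contDiff
  have hcb : closedBall z₀ (r₁ / 2) ⊆ ball z₀ r₁ := closedBall_subset_ball (half_lt_self hr₁0)
  set C := e.symm '' closedBall z₀ (r₁ / 2) with hC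
  have hCc : IsCompact C := (isCompact_closedBall _ _).image_of_continuousOn
    (e.continuousOn_symm.mono (hcb.trans hbt))
  set χ : M → ℝ := fun y => if y ∈ e.source then β (e y) else 0 with hχ
  have hχC : ∀ y, y ∉ C → χ y = 0 := by
    intro y hy
    simp only [hχ]
    split_ifs with h1
    · refine β.zero_of_le_dist (le_of_not_gt fun h2 => hy ⟨e y, ?_, e.left_inv h1⟩)
      exact le_of_lt h2
    · rfl
  have hts : tsupport χ ⊆ C := closure_minimal (fun y hy => by_contra fun h1 => hy (hχC y h1))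
    hCc.isClosed
  set U := e.source ∩ e ⁻¹' ball z₀ r₁ with hU
  have hUo : IsOpen U := e.isOpen_inter_preimage isOpen_ball
  have hCU : C ⊆ U := by
    rintro _ ⟨z, hz, rfl⟩
    have h1 := hbt (hcb hz)
    exact ⟨e.map_target h1, by rw [mem_preimage, e.right_inv h1]; exact hcb hz⟩
  have hχU : ∀ y ∈ U, χ y = β (e y) := fun y hy => if_pos hy.1
  have hχc : Continuous χ := by
    refine continuous_iff_continuousAt.2 fun y => ?_
    by_cases hy : y ∈ C
    · refine (hβ.continuous.continuousAt.comp (e.continuousAt (hCU hy).1)).congr ?_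
      filter_upwards [hUo.mem_nhds (hCU hy)] with y' hy' using (hχU y' hy').symm
    · refine (continuousAt_const (y := (0 : ℝ))).congr ?_
      filter_upwards [hCc.isClosed.isOpen_compl.mem_nhds hy] with y' hy' using (hχC y' hy').symm
  obtain ⟨B₁, hB₁⟩ := (isCompact_closedBall z₀ r₁).exists_bound_of_continuousOn
    (f := fun z (j k : Fin n) => cHess β z j k) (Continuous.continuousOn
      (continuous_pi fun j => continuous_pi fun k => continuous_iff_continuousAt.2 fun z =>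
        (C2.contDiffAt_cHess (m := 0) hβ.contDiffAt
          (by simpa [one_add_one_eq_two] using two_le_infty) j k).continuousAt))
  obtain ⟨B₂, hB₂⟩ := (isCompact_closedBall z₀ r₁).exists_bound_of_continuousOn
    (f := fderiv ℝ β) (hβ.continuous_fderiv (by simp)).continuousOn
  have hB₁0 : 0 ≤ B₁ := (norm_nonneg _).trans (hB₁ z₀ (mem_closedBall_self hr₁0.le))
  have hB₂0 : 0 ≤ B₂ := (norm_nonneg _).trans (hB₂ z₀ (mem_closedBall_self hr₁0.le))
  have hL₂ : 0 < L' - L₁ := by linarith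
  refine ⟨U, χ, min (l₁ / (n ^ 2 * B₁ + 1)) ((L' - L₁) * √l₃ / (B₂ + 1)),
    ⟨hUo, hχc, hCc.of_isClosed_subset (isClosed_tsupport _) hts, hts.trans hCU, fun y => ?_,
      fun y => ?_, by positivity, fun ε hε hε' η hη => ?_⟩, ?_, hts.trans ?_⟩
  · simp only [hχ]
    split_ifs
    exacts [β.nonneg, le_rfl]
  · simp only [hχ]
    split_ifs
    exacts [β.le_one, zero_le_one]
  · have hg : ContinuousOn (fun z => u (e.symm z)) (ball z₀ r) :=
      hu.comp_continuousOn (e.continuousOn_symm.mono hrt)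
    obtain ⟨δ, ρ, G, hδ, hm⟩ := exists_moll hg hr₁r hη
    set V : Cm n → ℝ := fun z => ∫ y, ρ y * G (z - y) with hV
    have hVs : ContDiff ℝ ∞ V := hm.sm
    have hWs : ContDiff ℝ ∞ fun z => V z + ε * β z := hVs.add (contDiff_const.mul hβ)
    refine ⟨fun y => V (e y) + ε * β (e y),
      hWs.continuous.comp_continuousOn (e.continuousOn.mono inter_subset_left),
      fun y hy => ⟨fun j hj => GoodAt.change (i := i) ?_ hy.1 hj, ?_⟩⟩
    · have h1 : (fun z => V (e (e.symm z)) + ε * β (e (e.symm z))) =ᶠ[𝓝 (e y)]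
          fun z => V z + ε * β z := by
        filter_upwards [e.open_target.mem_nhds (e.map_source hy.1)] with z hz
        rw [e.right_inv hz]
      obtain ⟨k₁, k₂, k₃, -⟩ := hb _ (hb' hy.2)
      have hyc : e y ∈ closedBall z₀ r₁ := ball_subset_closedBall hy.2
      refine ⟨hWs.contDiffAt.congr_of_eventuallyEq h1, fun hP' ξ => ?_, fun hQ' ξ => ?_⟩
      · rw [C2.cHess_congr h1, C2.cHess_add (hVs.of_le two_le_infty).contDiffAt
          (contDiffAt_const.mul (hβ.of_le two_le_infty).contDiffAt),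
          C2.cHess_const_mul ε (hβ.of_le two_le_infty).contDiffAt, hq_add, hq_smul]
        have h2 := hm.levi hδ (A := ((c x : ℝ) : ℂ) • K.w i z₀)
          (fun z ξ hz => by rw [hq_smul]; exact hP hP' z ξ hz) hy.2 ξ
        have h3 := k₁ ξ
        rw [hq_sub, hq_smul (c' _), e.left_inv hy.1] at h3
        have h4 := (abs_le.1 (abs_hq_le (A := cHess β (e y)) (b := B₁) (fun j k =>
          (norm_le_pi_norm _ k).trans ((norm_le_pi_norm _ j).trans (hB₁ _ hyc))) ξ)).1
        have h5 : ε * (n ^ 2 * B₁ + 1) ≤ l₁ :=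
          (le_div_iff₀ (by positivity)).1 (hε'.trans (min_le_left _ _))
        have h6 := mul_le_mul_of_nonneg_left h4 hε.le
        have h7 := mul_le_mul_of_nonneg_right h5 (sq_nonneg ‖ξ‖)
        have h8 := mul_nonneg hε.le (sq_nonneg ‖ξ‖)
        nlinarith
      · rw [h1.fderiv_eq, fderiv_fun_add (hVs.differentiable (by simp) _)
          ((hβ.differentiable (by simp) _).const_mul ε),
          fderiv_const_mul (hβ.differentiable (by simp) _), _root_.add_apply,
          _root_.smul_apply, smul_eq_mul]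
        have h2 := hm.lip hδ (N := fun ξ => L * √(hq (K.w i z₀) ξ)) (fun t ξ ht => by
          rw [hq_smul_real, Real.sqrt_mul (sq_nonneg t), Real.sqrt_sq ht.le]; ring)
          (hQ hQ') hy.2 ξ
        have h3 : L * √(hq (K.w i z₀) ξ) ≤ L₁ * √(hq (K.w i (e y)) ξ) := by
          have h4 := k₂ ξ
          rw [hq_sub, hq_smul, hq_smul] at h4
          rw [← Real.sqrt_sq hL, ← Real.sqrt_sq (show 0 ≤ L₁ by linarith),
            ← Real.sqrt_mul (sq_nonneg _), ← Real.sqrt_mul (sq_nonneg _)]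
          exact Real.sqrt_le_sqrt (by nlinarith [mul_nonneg hl₂.le (sq_nonneg ‖ξ‖)])
        have h4 : √l₃ * ‖ξ‖ ≤ √(hq (K.w i (e y)) ξ) := by
          rw [← Real.sqrt_sq (norm_nonneg ξ), ← Real.sqrt_mul hl₃.le]
          exact Real.sqrt_le_sqrt (k₃ ξ)
        have h5 : fderiv ℝ β (e y) ξ ≤ B₂ * ‖ξ‖ :=
          (le_abs_self _).trans ((fderiv ℝ β (e y)).le_of_opNorm_le (hB₂ _ hyc) ξ)
        have h6 : ε * (B₂ + 1) ≤ (L' - L₁) * √l₃ :=
          (le_div_iff₀ (by positivity)).1 (hε'.trans (min_le_right _ _))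
        have h7 := mul_le_mul_of_nonneg_left h5 hε.le
        have h8 := mul_le_mul_of_nonneg_right h6 (norm_nonneg ξ)
        have h9 := mul_le_mul_of_nonneg_left h4 hL₂.le
        have h10 := mul_nonneg hε.le (norm_nonneg ξ)
        nlinarith
    · have h1 := hm.near _ hy.2
      rw [e.left_inv hy.1] at h1
      rw [hχU y hy, add_sub_add_right_eq_sub]
      exact h1
  · rw [hχU x ⟨hx, mem_ball_self hr₁0⟩]
    exact β.pos_of_mem_ball (mem_ball_self β.rOut_pos)
  · rintro _ ⟨z, hz, rfl⟩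
    exact (hb z (hb' (hcb hz))).2.2.2

/-- **Smoothing**, general form. -/
theorem smoothing [T2Space M] [WeaklyLocallyCompactSpace M] [SigmaCompactSpace M]
    {u c' ε : M → ℝ} {L' : ℝ} (hu : Continuous u) (hc' : Continuous c') (hcc : ∀ x, c' x < c x)
    (hL : 0 ≤ L) (hLL : L < L') (h : LocData K P Q u c L) (hε : Continuous ε)
    (hε0 : ∀ x, 0 < ε x) :
    ∃ ψ : M → ℝ, Continuous ψ ∧ (∀ x, u x ≤ ψ x ∧ ψ x ≤ u x + ε x) ∧
      ∀ i, ∀ z ∈ (K.e i).target, ContDiffAt ℝ ∞ (fun z => ψ ((K.e i).symm z)) z ∧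
        (P → (cHess (fun z => ψ ((K.e i).symm z)) z -
          ((c' ((K.e i).symm z) : ℝ) : ℂ) • K.w i z).PosSemidef) ∧
        (Q → ∀ ξ, |fderiv ℝ (fun z => ψ ((K.e i).symm z)) z ξ| ≤ L' * √(hq (K.w i z) ξ)) := by
  obtain ⟨ψ, h1, h2⟩ := glue isGerm_good hu hε hε0 (exists_piece hu hc' hcc hL hLL h)
  refine ⟨ψ, h1, fun x => (h2 x).2, fun i z hz => ?_⟩
  obtain ⟨h3, h4, h5⟩ := (h2 ((K.e i).symm z)).1 i ((K.e i).map_target hz)
  rw [(K.e i).right_inv hz] at h3 h4 h5
  refine ⟨h3, fun hP => psd_of_hq ((C2.cHess_isHermitian (h3.of_le two_le_infty)).sub ?_)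
    fun ξ => ?_, fun hQ ξ => abs_le.2 ⟨?_, h5 hQ ξ⟩⟩
  · refine (K.wpos i z hz).isHermitian.smul ?_
    exact Complex.conj_ofReal _
  · rw [hq_sub, hq_smul]
    linarith [h4 hP ξ]
  · have h6 := h5 hQ (-ξ)
    rw [map_neg, ← neg_one_smul ℝ ξ, hq_smul_real] at h6
    norm_num at h6
    linarith

end Vale.Agent.P253Z.Smooth
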