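import Vale.Agent.P253Z.Spec
import Vale.Agent.P253Z.Smooth.Rich

/-!
# P253Z: the charts of the manifold as an input of the smoothing theorem
-/

open scoped Manifold ContDiff Bundle ENNReal Topology ComplexConjugate ComplexOrder
open Bundle IsManifold MeasureTheory Set Metric Filter Vale.Agent.P253.Mfd
open Vale.Agent.P272.K (Cm dz dzb cHess jacM Chart)

noncomputable section

namespace Vale.Agent.P253Z.Smooth

variable {n : ℕ} {M : Type} [MetricSpace M] [ChartedSpace (Cm n) M]
  [RiemannianBundle (fun x : M => TangentSpace 𝓘(ℝ, Cm n) x)]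

theorem hq_eq (A : Matrix (Fin n) (Fin n) ℂ) (v : Cm n) :
    hq A v = (∑ j, ∑ k, A j k * (v j * conj (v k))).re := by
  simp only [hq, dotProduct, Matrix.mulVec, Finset.mul_sum, Pi.star_apply, Complex.star_def]
  congr 1
  refine Finset.sum_congr rfl fun j _ => Finset.sum_congr rfl fun k _ => ?_
  ring

theorem hq_I (A : Matrix (Fin n) (Fin n) ℂ) (v : Cm n) : hq A (Complex.I • v) = hq A v := by
  rw [hq_smul_vec, Complex.norm_I, one_pow, one_mul]

/-- all holomorphic charts, with the metric -/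
def caM (a : B1a n M) (b : B1b n M) : CA n M where
  I := {e : Chart n M // Hc e}
  e := fun e => e.1
  w := fun e => hm e.1
  cover := fun x => ⟨⟨_, a.chart x⟩, mem_chart_source _ x⟩
  wsm := fun e => b.wsm e.1 e.2
  wpos := fun e => b.wpos e.1 e.2
  hol := fun e e' z => a.hol e.1 e'.1 e.2 e'.2 z
  wch := fun e e' x => b.wch e.1 e'.1 e.2 e'.2 x

theorem metric_eq (b : B1b n M) {e : Chart n M} (he : Hc e) {z : Cm n} (hz : z ∈ e.target)
    (v : Cm n) : chartMetric e z v v = hq (hm e z) v := by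
  rw [hq_eq, b.quad e he z hz]

/-- the second derivative of a quadratic form -/
theorem fderiv2_quad (G : Cm n →L[ℝ] Cm n →L[ℝ] ℝ) (z v : Cm n) :
    fderiv ℝ (fderiv ℝ fun y => G y y) z v v = 2 * G v v := by
  have h1 : (fderiv ℝ fun y => G y y) = fun y => (G + G.flip) y := by
    funext y
    have h2 := (G.hasFDerivAt (x := y)).clm_apply (hasFDerivAt_id y)
    rw [show (fun y => G y y) = fun y => G y (id y) from rfl, h2.fderiv]
    refine ContinuousLinearMap.ext fun v => ?_
    simp only [_root_.add_apply, ContinuousLinearMap.comp_apply, ContinuousLinearMap.flip_apply,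
      ContinuousLinearMap.id_apply, id]
  rw [h1, ContinuousLinearMap.fderiv]
  simp [two_mul]

/-- the mean of a quadratic form over an affine disc -/
theorem circleAverage_quad (G : Cm n →L[ℝ] Cm n →L[ℝ] ℝ) (hG : ∀ a b, G a b = G b a)
    (z ξ : Cm n) : Real.circleAverage (fun ζ : ℂ => G (z + ζ • ξ) (z + ζ • ξ)) 0 1 =
      G z z + (G ξ ξ + G (Complex.I • ξ) (Complex.I • ξ)) / 2 := by
  have h := circleAverage_taylor (G z z) ((2 : ℝ) • G z) ((2 : ℝ) • G)
    (fun a b => by simp [hG a b]) ξ 0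
  have h1 : (fun ζ : ℂ => G (z + ζ • ξ) (z + ζ • ξ)) = fun ζ : ℂ => G z z +
      ((2 : ℝ) • G z) (ζ • ξ) + (1 / 2) * ((2 : ℝ) • G) (ζ • ξ) (ζ • ξ) + 0 := by
    funext ζ
    simp only [map_add, _root_.add_apply, _root_.smul_apply, smul_eq_mul, hG (ζ • ξ) z]
    ring
  rw [h1, h]
  simp only [_root_.smul_apply, smul_eq_mul]
  ring

end Vale.Agent.P253Z.Smooth
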