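import Mathlib

/-!
# P253Z: gluing of local approximations by a regularised maximum
-/

open Set Filter Topology Function Real
open scoped ContDiff

noncomputable section

namespace Vale.Agent.P253Z.Smooth

/-- a convex function with slope in `[0, 1]`, zero for `x ≤ 0`, of slope `1` for `1 ≤ x` -/
def Gc (x : ℝ) : ℝ := ∫ t in (0 : ℝ)..x, smoothTransition t

theorem hasDerivAt_Gc (x : ℝ) : HasDerivAt Gc (smoothTransition x) x :=
  (smoothTransition.continuous.integral_hasStrictDerivAt 0 x).hasDerivAt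

theorem deriv_Gc : deriv Gc = smoothTransition := funext fun x => (hasDerivAt_Gc x).deriv

theorem contDiff_Gc : ContDiff ℝ ∞ Gc := by
  rw [contDiff_infty_iff_deriv, deriv_Gc]
  exact ⟨fun x => (hasDerivAt_Gc x).differentiableAt, smoothTransition.contDiff⟩

theorem Gc_mono : Monotone Gc := monotone_of_deriv_nonneg
  (fun x => (hasDerivAt_Gc x).differentiableAt) fun x => deriv_Gc ▸ smoothTransition.nonneg x

theorem Gc_lip {x y : ℝ} (h : x ≤ y) : Gc y - Gc x ≤ y - x := by
  have : Antitone fun x => Gc x - x := antitone_of_deriv_nonpos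
    (fun x => ((hasDerivAt_Gc x).sub (hasDerivAt_id x)).differentiableAt) fun x => by
      rw [((hasDerivAt_Gc x).fun_sub (hasDerivAt_id' x)).deriv]
      linarith [smoothTransition.le_one x]
  linarith [this h]

theorem Gc_of_nonpos {x : ℝ} (h : x ≤ 0) : Gc x = 0 := by
  rw [Gc, intervalIntegral.integral_congr (g := fun _ => 0), intervalIntegral.integral_zero]
  intro t ht
  rw [uIcc_of_ge h] at ht
  exact smoothTransition.zero_of_nonpos ht.2

theorem Gc_nonneg (x : ℝ) : 0 ≤ Gc x := by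
  rcases le_total x 0 with h | h
  · exact (Gc_of_nonpos h).ge
  · exact (Gc_of_nonpos le_rfl).ge.trans (Gc_mono h)

theorem Gc_of_one_le {x : ℝ} (h : 1 ≤ x) : Gc x = x - 1 + Gc 1 := by
  have h1 : ∫ t in (1 : ℝ)..x, smoothTransition t = x - 1 := by
    rw [intervalIntegral.integral_congr (g := fun _ => 1), intervalIntegral.integral_const,
      smul_eq_mul, mul_one]
    intro t ht
    rw [uIcc_of_le h] at ht
    exact smoothTransition.one_of_one_le ht.1
  rw [Gc, ← intervalIntegral.integral_add_adjacent_intervals (b := 1)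
    (smoothTransition.continuous.intervalIntegrable _ _)
    (smoothTransition.continuous.intervalIntegrable _ _), h1, add_comm]
  rfl

/-- the regularised maximum -/
def mx (δ a b : ℝ) : ℝ := a + δ * Gc ((b - a) / δ)

theorem le_mx {δ : ℝ} (hδ : 0 < δ) (a b : ℝ) : a ≤ mx δ a b :=
  le_add_of_nonneg_right (mul_nonneg hδ.le (Gc_nonneg _))

theorem mx_of_le {δ a b : ℝ} (hδ : 0 < δ) (h : b ≤ a) : mx δ a b = a := by
  rw [mx, Gc_of_nonpos (div_nonpos_of_nonpos_of_nonneg (by linarith) hδ.le), mul_zero, add_zero]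

theorem mx_of_ge {δ a b : ℝ} (hδ : 0 < δ) (h : a + δ ≤ b) : mx δ a b = b + δ * (Gc 1 - 1) := by
  rw [mx, Gc_of_one_le ((one_le_div hδ).2 (by linarith))]
  field_simp
  ring

theorem mx_le {δ a b c : ℝ} (hδ : 0 < δ) (ha : a ≤ c) (hb : b ≤ c) : mx δ a b ≤ c := by
  rcases le_total b a with h | h
  · rwa [mx_of_le hδ h]
  · have h1 := Gc_lip (div_nonneg (sub_nonneg.2 h) hδ.le)
    rw [Gc_of_nonpos le_rfl, sub_zero, sub_zero] at h1
    have h2 := mul_le_mul_of_nonneg_left h1 hδ.le
    rw [mul_div_cancel₀ _ hδ.ne'] at h2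
    rw [mx]
    linarith

theorem continuous_mx (δ : ℝ) : Continuous fun q : ℝ × ℝ => mx δ q.1 q.2 := by
  have := contDiff_Gc.continuous
  unfold mx
  fun_prop

variable {M : Type*} [TopologicalSpace M]

/-- a property of germs of functions which is stable under regularised maxima -/
structure IsGerm (Good : (M → ℝ) → M → Prop) : Prop where
  congr : ∀ f g x, f =ᶠ[𝓝 x] g → Good f x → Good g x
  add : ∀ f x (a : ℝ), Good f x → Good (fun y => f y + a) x
  max : ∀ f g x (δ : ℝ), 0 < δ → Good f x → Good g x → Good (fun y => mx δ (f y) (g y)) x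

/-- local approximations of `u + e χ` on `U` -/
structure Piece (Good : (M → ℝ) → M → Prop) (u : M → ℝ) (U : Set M) (χ : M → ℝ) (e₀ : ℝ) :
    Prop where
  opn : IsOpen U
  cont : Continuous χ
  cpt : IsCompact (tsupport χ)
  sub : tsupport χ ⊆ U
  nonneg : ∀ y, 0 ≤ χ y
  le_one : ∀ y, χ y ≤ 1
  pos : 0 < e₀
  app : ∀ e, 0 < e → e ≤ e₀ → ∀ η, 0 < η → ∃ v : M → ℝ, ContinuousOn v U ∧
    ∀ y ∈ U, Good v y ∧ |v y - (u y + e * χ y)| ≤ η

open Classical in
/-- the successive approximations -/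
def seqF (u : M → ℝ) (C : ℕ → Set M) (η : ℕ → ℝ) (w : ℕ → M → ℝ) : ℕ → M → ℝ
  | 0 => u
  | k + 1 => fun x => if x ∈ C k then mx (η k) (seqF u C η w k x) (w k x) else seqF u C η w k x

theorem glue_nat [T2Space M] {Good : (M → ℝ) → M → Prop} (hG : IsGerm Good) {u ε : M → ℝ}
    (hu : Continuous u) (hε : Continuous ε) (hε0 : ∀ x, 0 < ε x) {U : ℕ → Set M}
    {χ : ℕ → M → ℝ} {e₀ : ℕ → ℝ} (hP : ∀ k, Piece Good u (U k) (χ k) (e₀ k))
    (hlf : LocallyFinite fun k => tsupport (χ k)) (hcov : ∀ x, ∃ k, 0 < χ k x) :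
    ∃ ψ : M → ℝ, Continuous ψ ∧ ∀ x, Good ψ x ∧ u x ≤ ψ x ∧ ψ x ≤ u x + ε x := by
  classical
  have h1 : ∀ k, ∃ e, 0 < e ∧ e ≤ e₀ k ∧ ∀ y ∈ tsupport (χ k), e ≤ ε y := by
    intro k
    obtain ⟨a, ha, h⟩ := (hP k).cpt.exists_forall_le' hε.continuousOn fun y _ => hε0 y
    exact ⟨min a (e₀ k), lt_min ha (hP k).pos, min_le_right _ _,
      fun y hy => (min_le_left _ _).trans (h y hy)⟩
  choose e he0 he1 he2 using h1
  have h2 : ∀ k, ∃ m, 0 < m ∧ ∀ y ∈ tsupport (χ k), ∃ j, m ≤ e j * χ j y := by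
    intro k
    refine (hP k).cpt.induction_on (p := fun s => ∃ m, 0 < m ∧ ∀ y ∈ s, ∃ j, m ≤ e j * χ j y)
      ⟨1, one_pos, fun y hy => hy.elim⟩ ?_ ?_ ?_
    · rintro s t hst ⟨m, hm, h⟩
      exact ⟨m, hm, fun y hy => h y (hst hy)⟩
    · rintro s t ⟨m, hm, h⟩ ⟨m', hm', h'⟩
      refine ⟨min m m', lt_min hm hm', ?_⟩
      rintro y (hy | hy)
      · exact (h y hy).imp fun j hj => (min_le_left _ _).trans hj
      · exact (h' y hy).imp fun j hj => (min_le_right _ _).trans hj
    · intro x _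
      obtain ⟨j, hj⟩ := hcov x
      have h3 : 0 < e j * χ j x := mul_pos (he0 j) hj
      have h4 : ∀ᶠ y in 𝓝 x, e j * χ j x / 2 < e j * χ j y :=
        continuousAt_const.eventually_lt (g := fun y => e j * χ j y)
          (continuous_const.mul (hP j).cont).continuousAt (half_lt_self h3)
      exact ⟨_, mem_nhdsWithin_of_mem_nhds h4, _, half_pos h3, fun y hy => ⟨j, le_of_lt hy⟩⟩
  choose m hm0 hm using h2
  set η : ℕ → ℝ := fun k => m k / 2 ^ k / 8 with hη
  have hη0 : ∀ k, 0 < η k := fun k => by have := hm0 k; positivity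
  choose v hv1 hv2 using fun k => (hP k).app (e k) (he0 k) (he1 k) (η k) (hη0 k)
  set w : ℕ → M → ℝ := fun k y => v k y + -η k with hw
  set ψ := seqF u (fun k => tsupport (χ k)) η w with hψ
  have hs : ∀ k x, ψ (k + 1) x =
      if x ∈ tsupport (χ k) then mx (η k) (ψ k x) (w k x) else ψ k x := fun _ _ => rfl
  have hwle : ∀ k, ∀ y ∈ U k, w k y ≤ u y + e k * χ k y := fun k y hy => by
    have := (abs_le.1 (hv2 k y hy).2).2
    simp only [hw]; linarith
  have hwge : ∀ k, ∀ y ∈ U k, u y + e k * χ k y - 2 * η k ≤ w k y := fun k y hy => by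
    have := (abs_le.1 (hv2 k y hy).2).1
    simp only [hw]; linarith
  have hlow : ∀ k x, u x ≤ ψ k x := by
    intro k
    induction k with
    | zero => exact fun x => le_rfl
    | succ k ih =>
      intro x
      rw [hs]
      split_ifs
      · exact (ih x).trans (le_mx (hη0 k) _ _)
      · exact ih x
  have hupp : ∀ k x, ψ k x ≤ u x + ε x := by
    intro k
    induction k with
    | zero => exact fun x => le_add_of_nonneg_right (hε0 x).le
    | succ k ih =>
      intro x
      rw [hs]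
      split_ifs with h
      · refine mx_le (hη0 k) (ih x) ((hwle k x ((hP k).sub h)).trans ?_)
        have h3 := mul_le_mul_of_nonneg_left ((hP k).le_one x) (he0 k).le
        linarith [he2 k x h]
      · exact ih x
  have hin : ∀ k, ∀ y ∈ U k, ψ (k + 1) y = mx (η k) (ψ k y) (w k y) := by
    intro k y hy
    rw [hs]
    split_ifs with h
    · rfl
    · refine (mx_of_le (hη0 k) ?_).symm
      have h3 := hwle k y hy
      rw [image_eq_zero_of_notMem_tsupport h, mul_zero, add_zero] at h3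
      exact h3.trans (hlow k y)
  have hin' : ∀ k, ∀ x ∈ U k, (fun y => mx (η k) (ψ k y) (w k y)) =ᶠ[𝓝 x] ψ (k + 1) :=
    fun k x hx => by
      filter_upwards [(hP k).opn.mem_nhds hx] with y hy using (hin k y hy).symm
  have hout : ∀ k x, x ∉ tsupport (χ k) → ψ k =ᶠ[𝓝 x] ψ (k + 1) := fun k x hx => by
    filter_upwards [(isClosed_tsupport (χ k)).isOpen_compl.mem_nhds hx] with y hy
    rw [hs, if_neg hy]
  have hwc : ∀ k, ∀ x ∈ U k, ContinuousAt (w k) x := fun k x hx =>
    ((hv1 k).continuousAt ((hP k).opn.mem_nhds hx)).add continuousAt_const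
  have hcont : ∀ k, Continuous (ψ k) := by
    intro k
    induction k with
    | zero => exact hu
    | succ k ih =>
      refine continuous_iff_continuousAt.2 fun x => ?_
      by_cases h : x ∈ tsupport (χ k)
      · have hx := (hP k).sub h
        refine ContinuousAt.congr ?_ (hin' k x hx)
        exact (continuous_mx (η k)).continuousAt.comp₂ ih.continuousAt (hwc k x hx)
      · exact ih.continuousAt.congr (hout k x h)
  have hwg : ∀ k, ∀ x ∈ U k, Good (w k) x := fun k x hx => hG.add _ _ _ (hv2 k x hx).1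
  have hstep : ∀ k x, Good (ψ k) x → Good (ψ (k + 1)) x := by
    intro k x hx
    by_cases h : x ∈ tsupport (χ k)
    · exact hG.congr _ _ _ (hin' k x ((hP k).sub h))
        (hG.max _ _ _ _ (hη0 k) hx (hwg k x ((hP k).sub h)))
    · exact hG.congr _ _ _ (hout k x h) hx
  have hjump : ∀ k, ∀ x ∈ U k, ψ k x + η k < w k x → Good (ψ (k + 1)) x := by
    intro k x hx h
    refine hG.congr _ _ _ ?_ (hG.add _ _ (η k * (Gc 1 - 1)) (hwg k x hx))
    refine EventuallyEq.trans ?_ (hin' k x hx)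
    filter_upwards [((hcont k).continuousAt.add continuousAt_const).eventually_lt (hwc k x hx) h]
      with y hy using (mx_of_ge (hη0 k) hy.le).symm
  have hgood : ∀ x, ∃ k, Good (ψ k) x := by
    intro x
    obtain ⟨j₀, hj₀⟩ := hcov x
    obtain ⟨j, hj, hmax⟩ := Set.exists_max_image {j | x ∈ tsupport (χ j)}
      (fun j => e j * χ j x) (hlf.point_finite x) ⟨j₀, subset_tsupport _ hj₀.ne'⟩
    set G := e j * χ j x with hGd
    have hG0 : 0 < G := (mul_pos (he0 j₀) hj₀).trans_le (hmax j₀ (subset_tsupport _ hj₀.ne'))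
    have hηG : ∀ k, x ∈ tsupport (χ k) → η k ≤ G / 2 ^ k / 8 := by
      intro k hk
      obtain ⟨i, hi⟩ := hm k x hk
      have h3 : χ i x ≠ 0 := fun h0 => by
        rw [h0, mul_zero] at hi
        linarith [hm0 k]
      have h4 : m k ≤ G := hi.trans (hmax i (subset_tsupport _ h3))
      simp only [hη]
      gcongr
    have hdi : ∀ k, Good (ψ k) x ∨ ψ k x ≤ u x + (G - G / 2 ^ k) / 4 := by
      intro k
      induction k with
      | zero => exact Or.inr (by simp [hψ, seqF])
      | succ k ih =>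
        rcases ih with ih | ih
        · exact Or.inl (hstep k x ih)
        have h5 : G / 2 ^ (k + 1) = G / 2 ^ k / 2 := by rw [pow_succ, div_div]
        have h6 : 0 < G / 2 ^ k := by positivity
        by_cases h : x ∈ tsupport (χ k)
        · rcases lt_or_ge (ψ k x + η k) (w k x) with h7 | h7
          · exact Or.inl (hjump k x ((hP k).sub h) h7)
          · refine Or.inr ?_
            have h8 := hηG k h
            rw [hin k x ((hP k).sub h)]
            exact mx_le (hη0 k) (by linarith) (by linarith)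
        · refine Or.inr ?_
          rw [hs, if_neg h]
          linarith
    rcases hdi j with h | h
    · exact ⟨j, h⟩
    refine ⟨j + 1, hjump j x ((hP j).sub hj) ?_⟩
    have h7 := hwge j x ((hP j).sub hj)
    have h8 := hηG j hj
    have h6 : 0 < G / 2 ^ j := by positivity
    have h9 : G / 2 ^ j ≤ G := div_le_self hG0.le (one_le_pow₀ one_le_two)
    linarith
  have hlf' : LocallyFinite fun k => {x | ψ (k + 1) x ≠ ψ k x} := by
    refine hlf.subset fun k x hx => ?_
    by_contra h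
    exact hx (by rw [hs, if_neg h])
  obtain ⟨F, hF⟩ := hlf'.exists_forall_eventually_atTop_eventually_eq'
  refine ⟨F, continuous_iff_continuousAt.2 fun x => ?_, fun x => ?_⟩
  · obtain ⟨k, hk⟩ := (hF x).exists
    exact (hcont k).continuousAt.congr hk
  · obtain ⟨k₀, hk₀⟩ := hgood x
    obtain ⟨k, hk, hk'⟩ := ((hF x).and (eventually_ge_atTop k₀)).exists
    have h3 : Good (ψ k) x := Nat.le_induction hk₀ (fun k _ h => hstep k x h) k hk'
    have h4 : ψ k x = F x := hk.self_of_nhds
    exact ⟨hG.congr _ _ _ hk h3, h4 ▸ hlow k x, h4 ▸ hupp k x⟩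

/-- **Gluing.** -/
theorem glue [T2Space M] [WeaklyLocallyCompactSpace M] [SigmaCompactSpace M]
    {Good : (M → ℝ) → M → Prop} (hG : IsGerm Good) {u ε : M → ℝ}
    (hu : Continuous u) (hε : Continuous ε) (hε0 : ∀ x, 0 < ε x)
    (hloc : ∀ x, ∀ N ∈ 𝓝 x, ∃ U χ e₀, Piece Good u U χ e₀ ∧ 0 < χ x ∧ tsupport χ ⊆ N) :
    ∃ ψ : M → ℝ, Continuous ψ ∧ ∀ x, Good ψ x ∧ u x ≤ ψ x ∧ ψ x ≤ u x + ε x := by
  classical
  have hB : ∀ x : M, (𝓝 x).HasBasis
      (fun d : Set M × (M → ℝ) × ℝ => Piece Good u d.1 d.2.1 d.2.2 ∧ 0 < d.2.1 x)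
      (fun d => support d.2.1) := by
    intro x
    refine ⟨fun t => ⟨fun ht => ?_, ?_⟩⟩
    · obtain ⟨U, χ, e₀, h1, h2, h3⟩ := hloc x t ht
      exact ⟨(U, χ, e₀), ⟨h1, h2⟩, (subset_tsupport χ).trans h3⟩
    · rintro ⟨d, ⟨h1, h2⟩, h3⟩
      exact mem_of_superset (h1.cont.isOpen_support.mem_nhds h2.ne') h3
  obtain ⟨α, c, r, h1, h2, h3⟩ := refinement_of_locallyCompact_sigmaCompact_of_nhds_basis hB
  let _ : Encodable α := h3.encodable fun a => ⟨c a, (h1 a).2.ne'⟩
  set d : ℕ → Set M × (M → ℝ) × ℝ := fun k => ((Encodable.decode₂ α k).map r).getD (∅, 0, 1)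
    with hd
  have h4 : ∀ a, d (Encodable.encode a) = r a := fun a => by
    simp [hd, Encodable.decode₂_encode]
  have h5 : ∀ k, (∃ a : α, Encodable.encode a = k) ∨ d k = (∅, 0, 1) := by
    intro k
    cases h : Encodable.decode₂ α k with
    | none => exact Or.inr (by simp [hd, h])
    | some a => exact Or.inl ⟨a, Encodable.decode₂_eq_some.1 h⟩
  refine glue_nat hG hu hε hε0 (U := fun k => (d k).1) (χ := fun k => (d k).2.1)
    (e₀ := fun k => (d k).2.2) (fun k => ?_) (fun x => ?_) fun x => ?_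
  · rcases h5 k with ⟨a, rfl⟩ | h
    · rw [h4]; exact (h1 a).1
    · rw [h]
      exact ⟨isOpen_empty, continuous_zero, by simp, by simp, fun _ => le_rfl,
        fun _ => zero_le_one, one_pos, fun _ _ _ _ _ =>
          ⟨0, continuousOn_empty _, fun y hy => hy.elim⟩⟩
  · obtain ⟨t, ht, hf⟩ := h3.closure x
    refine ⟨t, ht, (hf.image Encodable.encode).subset fun k hk => ?_⟩
    rcases h5 k with ⟨a, rfl⟩ | h
    · refine ⟨a, ?_, rfl⟩
      simp only [mem_ofPred_eq, h4] at hk
      exact hk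
    · simp [h] at hk
  · obtain ⟨a, ha⟩ := mem_iUnion.1 (h2.ge (mem_univ x))
    refine ⟨Encodable.encode a, ?_⟩
    rw [h4]
    exact lt_of_le_of_ne ((h1 a).1.nonneg x) (Ne.symm ha)

end Vale.Agent.P253Z.Smooth
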