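import Vale.Agent.P253Z.Smooth.Glue
import Vale.Agent.P272.K.N.Hess
import Vale.Agent.P272.K.C2.Wirt
import Vale.Agent.P272.K.Inv.Hess

/-!
# P253Z: Hermitian forms, the Levi form of a function with a sub-mean value property
-/

open scoped ContDiff ComplexOrder Topology Matrix ComplexConjugate
open Complex Set Filter MeasureTheory Metric

noncomputable section

namespace Vale.Agent.P253Z.Smooth

open Vale.Agent.P272.K

variable {n : ℕ}

/-- the value `Σ A j k ξ j conj (ξ k)` of a Hermitian form -/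
def hq (A : Matrix (Fin n) (Fin n) ℂ) (ξ : Cm n) : ℝ := (ξ ⬝ᵥ A.mulVec (star ξ)).re

theorem hq_add (A B : Matrix (Fin n) (Fin n) ℂ) (ξ : Cm n) : hq (A + B) ξ = hq A ξ + hq B ξ := by
  simp [hq, Matrix.add_mulVec, dotProduct_add]

theorem hq_sub (A B : Matrix (Fin n) (Fin n) ℂ) (ξ : Cm n) : hq (A - B) ξ = hq A ξ - hq B ξ := by
  simp [hq, Matrix.sub_mulVec, dotProduct_sub]

theorem hq_smul (c : ℝ) (A : Matrix (Fin n) (Fin n) ℂ) (ξ : Cm n) :
    hq ((c : ℂ) • A) ξ = c * hq A ξ := by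
  simp [hq, Matrix.smul_mulVec, dotProduct_smul]

theorem hq_smul_vec (A : Matrix (Fin n) (Fin n) ℂ) (c : ℂ) (ξ : Cm n) :
    hq A (c • ξ) = ‖c‖ ^ 2 * hq A ξ := by
  unfold hq
  rw [star_smul, Matrix.mulVec_smul, smul_dotProduct, dotProduct_smul, smul_eq_mul, smul_eq_mul,
    ← mul_assoc, star_def, Complex.mul_conj, Complex.re_ofReal_mul, Complex.normSq_eq_norm_sq]

theorem hq_smul_real (A : Matrix (Fin n) (Fin n) ℂ) (c : ℝ) (ξ : Cm n) :
    hq A (c • ξ) = c ^ 2 * hq A ξ := by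
  rw [← Complex.coe_smul, hq_smul_vec, Complex.norm_real, Real.norm_eq_abs, sq_abs]

theorem abs_hq_le {A : Matrix (Fin n) (Fin n) ℂ} {b : ℝ} (h : ∀ j k, ‖A j k‖ ≤ b) (ξ : Cm n) :
    |hq A ξ| ≤ n ^ 2 * b * ‖ξ‖ ^ 2 := by
  refine (Complex.abs_re_le_norm _).trans ?_
  simp only [dotProduct, Matrix.mulVec, Finset.mul_sum]
  refine (norm_sum_le _ _).trans ?_
  have h1 : ∀ j, ‖∑ k, ξ j * (A j k * star ξ k)‖ ≤ n * (b * ‖ξ‖ ^ 2) := by
    intro j
    refine (norm_sum_le _ _).trans ?_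
    have h2 : ∀ k, ‖ξ j * (A j k * star ξ k)‖ ≤ b * ‖ξ‖ ^ 2 := by
      intro k
      rw [norm_mul, norm_mul, Pi.star_apply, norm_star]
      have h3 := norm_le_pi_norm ξ j
      have h4 := norm_le_pi_norm ξ k
      have h5 : 0 ≤ b := (norm_nonneg _).trans (h j k)
      calc ‖ξ j‖ * (‖A j k‖ * ‖ξ k‖) ≤ ‖ξ‖ * (b * ‖ξ‖) := by
            have := h j k
            gcongr
        _ = _ := by ring
    refine (Finset.sum_le_sum fun k _ => h2 k).trans ?_
    simp
  refine (Finset.sum_le_sum fun j _ => h1 j).trans (le_of_eq ?_)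
  simp only [Finset.sum_const, Finset.card_univ, Fintype.card_fin, nsmul_eq_mul]
  ring

theorem psd_of_hq {A : Matrix (Fin n) (Fin n) ℂ} (hA : A.IsHermitian) (h : ∀ ξ, 0 ≤ hq A ξ) :
    A.PosSemidef := by
  refine Matrix.PosSemidef.of_dotProduct_mulVec_nonneg hA fun y => ?_
  have h1 := h (star y)
  rw [hq, star_star] at h1
  refine Complex.nonneg_iff.2 ⟨h1, ?_⟩
  have := hA.im_star_dotProduct_mulVec_self y
  simpa using this.symm

theorem hq_nonneg {A : Matrix (Fin n) (Fin n) ℂ} (hA : A.PosSemidef) (ξ : Cm n) : 0 ≤ hq A ξ := by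
  have h := hA.dotProduct_mulVec_nonneg (star ξ)
  rw [star_star] at h
  exact (Complex.nonneg_iff.1 h).1

theorem hq_pos {A : Matrix (Fin n) (Fin n) ℂ} (hA : A.PosDef) {ξ : Cm n} (hξ : ξ ≠ 0) :
    0 < hq A ξ := by
  have h := hA.dotProduct_mulVec_pos (x := star ξ) (by simpa using hξ)
  rw [star_star] at h
  exact (Complex.pos_iff.1 h).1

theorem exists_hq_lower {A : Matrix (Fin n) (Fin n) ℂ} (hA : A.PosDef) :
    ∃ l : ℝ, 0 < l ∧ ∀ ξ, l * ‖ξ‖ ^ 2 ≤ hq A ξ := by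
  have hc : Continuous fun ξ : Cm n => hq A ξ := by
    unfold hq
    fun_prop
  obtain ⟨l, hl, h⟩ := (isCompact_sphere (0 : Cm n) 1).exists_forall_le' hc.continuousOn
    (a := 0) fun ξ hξ => hq_pos hA (by rintro rfl; simp at hξ)
  refine ⟨l, hl, fun ξ => ?_⟩
  rcases eq_or_ne ξ 0 with rfl | h0
  · simp [hq]
  have h1 : 0 < ‖ξ‖ := norm_pos_iff.2 h0
  have h2 := h (‖ξ‖⁻¹ • ξ) (by simp [norm_smul, h1.ne'])
  rw [hq_smul_real, inv_pow, ← div_eq_inv_mul, le_div_iff₀ (by positivity)] at h2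
  exact h2

/-- a form which is positive at a point stays uniformly positive nearby -/
theorem eventually_hq_lower {T : Type*} [TopologicalSpace T] {A : T → Matrix (Fin n) (Fin n) ℂ}
    {t : T} (hc : ∀ j k, ContinuousAt (fun s => A s j k) t) (hA : (A t).PosDef) :
    ∃ l : ℝ, 0 < l ∧ ∀ᶠ s in 𝓝 t, ∀ ξ, l * ‖ξ‖ ^ 2 ≤ hq (A s) ξ := by
  obtain ⟨l, hl, h⟩ := exists_hq_lower hA
  set b : ℝ := l / 2 / (n ^ 2 + 1) with hb
  have hb0 : 0 < b := by positivity
  have h1 : ∀ᶠ s in 𝓝 t, ∀ j k, ‖(A t - A s) j k‖ ≤ b := by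
    simp only [eventually_all]
    intro j k
    filter_upwards [Metric.tendsto_nhds.1 (hc j k) b hb0] with s hs
    rw [Matrix.sub_apply, ← dist_eq_norm, dist_comm]
    exact hs.le
  refine ⟨l / 2, half_pos hl, h1.mono fun s hs ξ => ?_⟩
  have h2 := (abs_le.1 (abs_hq_le hs ξ)).2
  rw [hq_sub] at h2
  have h3 : (n : ℝ) ^ 2 * b ≤ l / 2 := by
    rw [hb, ← mul_div_assoc, div_le_iff₀ (by positivity)]
    nlinarith
  have h4 := mul_le_mul_of_nonneg_right h3 (sq_nonneg ‖ξ‖)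
  linarith [h ξ]

theorem fderiv2_symm {E : Type*} [NormedAddCommGroup E] [NormedSpace ℝ E] {q : E → ℝ} {p : E}
    (hq : ContDiffAt ℝ 2 q p) (a b : E) :
    fderiv ℝ (fderiv ℝ q) p a b = fderiv ℝ (fderiv ℝ q) p b a :=
  hq.isSymmSndFDerivAt (by simp) a b

theorem hq_cHess {q : Cm n → ℝ} {p : Cm n} (hq2 : ContDiffAt ℝ 2 q p) (ξ : Cm n) :
    hq (cHess q p) ξ = (fderiv ℝ (fderiv ℝ q) p ξ ξ +
      fderiv ℝ (fderiv ℝ q) p (I • ξ) (I • ξ)) / 4 := by
  have h := N.lev_quadratic (B := fderiv ℝ (fderiv ℝ q) p) (fun a b => fderiv2_symm hq2 a b)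
    (star ξ)
  rw [star_star] at h
  unfold hq
  rw [N.cHess_eq_lev ((hq2.fderiv_right (m := 1) (by norm_num)).differentiableAt (by simp)), h]
  simp

theorem taylor2 {E : Type*} [NormedAddCommGroup E] [NormedSpace ℝ E] {q : E → ℝ} {p : E}
    (hq : ContDiffAt ℝ 2 q p) {ε : ℝ} (hε : 0 < ε) :
    ∃ r : ℝ, 0 < r ∧ ∀ v : E, ‖v‖ < r →
      |q (p + v) - q p - fderiv ℝ q p v - (1 / 2) * fderiv ℝ (fderiv ℝ q) p v v| ≤ ε * ‖v‖ ^ 2 := by
  have h1 : ∀ᶠ y in 𝓝 p, DifferentiableAt ℝ q y := by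
    filter_upwards [hq.eventually (by simp)] with y hy
    exact hy.differentiableAt (by simp)
  have h2 : DifferentiableAt ℝ (fderiv ℝ q) p :=
    (hq.fderiv_right (m := 1) (by norm_num)).differentiableAt (by simp)
  have h3 := h2.hasFDerivAt.isLittleO.def hε
  obtain ⟨r, hr, hball⟩ := Metric.eventually_nhds_iff_ball.1 (h1.and h3)
  refine ⟨r, hr, fun v hv => ?_⟩
  set B := fderiv ℝ (fderiv ℝ q) p with hB
  have hsymm : ∀ a b : E, B a b = B b a := fun a b => fderiv2_symm hq a b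
  set F : E → ℝ := fun u => q (p + u) - q p - fderiv ℝ q p u - (1 / 2) * B u u with hF
  have hder : ∀ u : E, ‖u‖ < r → HasFDerivAt F (fderiv ℝ q (p + u) - fderiv ℝ q p - B u) u := by
    intro u hu
    have hu' : p + u ∈ ball p r := by simpa [mem_ball, dist_eq_norm] using hu
    have d1 : HasFDerivAt (fun u => q (p + u)) (fderiv ℝ q (p + u)) u := by
      have h6 : HasFDerivAt (fun u : E => p + u) (ContinuousLinearMap.id ℝ E) u :=
        (hasFDerivAt_id u).const_add p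
      exact HasFDerivAt.comp (g := q) (f := fun u : E => p + u) u (hball _ hu').1.hasFDerivAt h6
    have d2 : HasFDerivAt (fun u => fderiv ℝ q p u) (fderiv ℝ q p) u :=
      (fderiv ℝ q p).hasFDerivAt
    have d3 : HasFDerivAt (fun u => B u u) (B u + B.flip u) u := by
      have := B.hasFDerivAt (x := u)
      have h5 := this.clm_apply (hasFDerivAt_id u)
      refine h5.congr_fderiv ?_
      ext a
      simp
    have d4 := ((d1.sub_const (q p)).sub d2).sub (d3.const_mul (1 / 2 : ℝ))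
    refine d4.congr_fderiv ?_
    ext a
    simp [hsymm a u]
    ring
  have hbound : ∀ u ∈ closedBall (0 : E) ‖v‖, ‖fderiv ℝ q (p + u) - fderiv ℝ q p - B u‖ ≤
      ε * ‖v‖ := by
    intro u hu
    have hu1 : ‖u‖ ≤ ‖v‖ := by simpa using hu
    have hu' : p + u ∈ ball p r := by
      simpa [mem_ball, dist_eq_norm] using lt_of_le_of_lt hu1 hv
    have := (hball _ hu').2
    simp only [add_sub_cancel_left] at this
    exact this.trans (mul_le_mul_of_nonneg_left hu1 hε.le)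
  have key := (convex_closedBall (0 : E) ‖v‖).norm_image_sub_le_of_norm_hasFDerivWithin_le
    (f := F) (f' := fun u => fderiv ℝ q (p + u) - fderiv ℝ q p - B u) (C := ε * ‖v‖)
    (fun u hu => (hder u (lt_of_le_of_lt (by simpa using hu) hv)).hasFDerivWithinAt) hbound
    (x := 0) (y := v) (by simp) (by simp)
  have hF0 : F 0 = 0 := by simp [hF]
  rw [hF0, sub_zero, sub_zero, Real.norm_eq_abs] at key
  calc |q (p + v) - q p - fderiv ℝ q p v - 1 / 2 * B v v| = |F v| := rfl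
    _ ≤ ε * ‖v‖ * ‖v‖ := key
    _ = ε * ‖v‖ ^ 2 := by ring

/-- the mean over the circle of the second order Taylor polynomial -/
theorem circleAverage_taylor (c : ℝ) (L : Cm n →L[ℝ] ℝ) (B : N.Bil n)
    (hB : ∀ a b, B a b = B b a) (ξ : Cm n) (C : ℝ) :
    Real.circleAverage (fun ζ : ℂ => c + L (ζ • ξ) + (1 / 2) * B (ζ • ξ) (ζ • ξ) + C) 0 1 =
      c + (B ξ ξ + B (I • ξ) (I • ξ)) / 4 + C := by
  have hz : ∀ θ : ℝ, (circleMap 0 1 θ) • ξ = (Real.cos θ) • ξ + (Real.sin θ) • (I • ξ) := by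
    intro θ
    rw [circleMap, Complex.ofReal_one, one_mul, zero_add, Complex.exp_mul_I, add_smul, mul_smul,
      ← Complex.ofReal_cos, ← Complex.ofReal_sin, Complex.coe_smul, Complex.coe_smul]
  rw [Real.circleAverage_def]
  have h1 : (fun θ : ℝ => c + L (circleMap 0 1 θ • ξ) +
      (1 / 2) * B (circleMap 0 1 θ • ξ) (circleMap 0 1 θ • ξ) + C) = fun θ : ℝ =>
      (c + C) + L ξ * Real.cos θ + L (I • ξ) * Real.sin θ + (1 / 2 * B ξ ξ) * Real.cos θ ^ 2 +
        (1 / 2 * B (I • ξ) (I • ξ)) * Real.sin θ ^ 2 +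
          B ξ (I • ξ) * (Real.sin θ * Real.cos θ) := by
    ext θ
    rw [hz θ]
    simp only [map_add, map_smul, _root_.add_apply, _root_.smul_apply, smul_eq_mul]
    rw [hB (I • ξ) ξ]
    ring
  simp only [h1]
  have i1 : ∀ f : ℝ → ℝ, Continuous f → IntervalIntegrable f volume 0 (2 * Real.pi) :=
    fun f hf => hf.intervalIntegrable _ _
  rw [intervalIntegral.integral_add (i1 _ (by fun_prop)) (i1 _ (by fun_prop)),
    intervalIntegral.integral_add (i1 _ (by fun_prop)) (i1 _ (by fun_prop)),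
    intervalIntegral.integral_add (i1 _ (by fun_prop)) (i1 _ (by fun_prop)),
    intervalIntegral.integral_add (i1 _ (by fun_prop)) (i1 _ (by fun_prop)),
    intervalIntegral.integral_add (i1 _ (by fun_prop)) (i1 _ (by fun_prop)),
    intervalIntegral.integral_const_mul, intervalIntegral.integral_const_mul,
    intervalIntegral.integral_const_mul, intervalIntegral.integral_const_mul,
    intervalIntegral.integral_const_mul, intervalIntegral.integral_const, integral_cos,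
    integral_sin, integral_cos_sq, integral_sin_sq, integral_sin_mul_cos₁]
  simp only [Real.sin_two_pi, Real.sin_zero, Real.cos_two_pi, Real.cos_zero, smul_eq_mul]
  have := Real.pi_ne_zero
  field_simp
  ring

/-- the sub-mean value property bounds the Levi form from below -/
theorem hq_le_of_subMean {q : Cm n → ℝ} (hq2 : ContDiff ℝ 2 q) {p : Cm n}
    {A : Matrix (Fin n) (Fin n) ℂ} {r : ℝ} (hr : 0 < r)
    (h : ∀ ξ : Cm n, ‖ξ‖ < r →
      q p + hq A ξ ≤ Real.circleAverage (fun ζ : ℂ => q (p + ζ • ξ)) 0 1) (ξ : Cm n) :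
    hq A ξ ≤ hq (cHess q p) ξ := by
  refine le_of_forall_pos_le_add fun ε hε => ?_
  set ε' : ℝ := ε / (‖ξ‖ ^ 2 + 1) with hε'
  have hε'0 : 0 < ε' := by positivity
  obtain ⟨r1, hr1, htay⟩ := taylor2 (hq2.contDiffAt (x := p)) hε'0
  set R : ℝ := min r r1 with hR
  have hR0 : 0 < R := lt_min hr hr1
  set δ : ℝ := R / (2 * (‖ξ‖ + 1)) with hδ
  have hδ0 : 0 < δ := by positivity
  have hδξ : ‖δ • ξ‖ < R := by
    rw [norm_smul, Real.norm_of_nonneg hδ0.le, hδ, div_mul_eq_mul_div,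
      div_lt_iff₀ (by positivity)]
    nlinarith [norm_nonneg ξ]
  have hc := hq2.continuous
  have h1 := h _ (hδξ.trans_le (min_le_left _ _))
  have h2 : Real.circleAverage (fun ζ : ℂ => q (p + ζ • (δ • ξ))) 0 1 ≤
      q p + hq (cHess q p) (δ • ξ) + ε' * ‖δ • ξ‖ ^ 2 := by
    rw [hq_cHess hq2.contDiffAt, ← circleAverage_taylor (q p) (fderiv ℝ q p) _
      (fderiv2_symm hq2.contDiffAt) (δ • ξ) (ε' * ‖δ • ξ‖ ^ 2)]
    refine Real.circleAverage_mono ?_ ?_ fun ζ hζ => ?_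
    · exact ContinuousOn.circleIntegrable zero_le_one (by fun_prop)
    · exact ContinuousOn.circleIntegrable zero_le_one (by fun_prop)
    · have h3 : ‖ζ • (δ • ξ)‖ = ‖δ • ξ‖ := by
        have h4 : ‖ζ‖ = 1 := by simpa using hζ
        rw [norm_smul ζ, h4, one_mul]
      have h4 := (abs_le.1 (htay (ζ • (δ • ξ))
        (by rw [h3]; exact hδξ.trans_le (min_le_right _ _)))).2
      rw [h3] at h4
      linarith
  rw [hq_smul_real] at h1 h2
  rw [norm_smul, Real.norm_of_nonneg hδ0.le, mul_pow] at h2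
  have h5 : ε' * ‖ξ‖ ^ 2 ≤ ε := by
    rw [hε', div_mul_eq_mul_div, div_le_iff₀ (by positivity)]
    nlinarith
  have h6 : δ ^ 2 * hq A ξ ≤ δ ^ 2 * (hq (cHess q p) ξ + ε) := by
    have := mul_le_mul_of_nonneg_left h5 (sq_nonneg δ)
    nlinarith
  exact le_of_mul_le_mul_left h6 (by positivity)

/-- the matrix `∂f ⊗ conj ∂f` -/
def gg (f : Cm n → ℝ) (z : Cm n) : Matrix (Fin n) (Fin n) ℂ :=
  Matrix.of fun j k => dz j (fun z => (f z : ℂ)) z * conj (dz k (fun z => (f z : ℂ)) z)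

theorem gg_psd (f : Cm n → ℝ) (z : Cm n) : (gg f z).PosSemidef :=
  Matrix.posSemidef_vecMulVec_self_star fun j => dz j (fun z => (f z : ℂ)) z

theorem hq_gg (f : Cm n → ℝ) (z ξ : Cm n) :
    hq (gg f z) ξ = ((fderiv ℝ f z ξ) ^ 2 + (fderiv ℝ f z (I • ξ)) ^ 2) / 4 := by
  have h1 : ∑ j, ξ j * dz j (fun z => (f z : ℂ)) z =
      ((fderiv ℝ f z ξ : ℝ) - I * (fderiv ℝ f z (I • ξ) : ℝ)) / 2 := by
    rw [congrArg (fderiv ℝ f z) (N.decompI ξ), congrArg (fderiv ℝ f z) (N.decomp ξ)]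
    simp only [map_sum, map_add, map_smul, smul_eq_mul, N.dz_ofReal]
    push_cast
    rw [Finset.mul_sum, ← Finset.sum_sub_distrib, Finset.sum_div]
    refine Finset.sum_congr rfl fun j _ => ?_
    conv_lhs => rw [← Complex.re_add_im (ξ j)]
    linear_combination (-(ξ j).im * (fderiv ℝ f z (Pi.single j I) : ℝ) / 2 : ℂ) * I_mul_I
  have h2 : ξ ⬝ᵥ (gg f z).mulVec (star ξ) = (∑ j, ξ j * dz j (fun z => (f z : ℂ)) z) *
      conj (∑ j, ξ j * dz j (fun z => (f z : ℂ)) z) := by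
    simp only [dotProduct, Matrix.mulVec, gg, Matrix.of_apply, map_sum, map_mul, Finset.mul_sum,
      Finset.sum_mul, Pi.star_apply, star_def]
    rw [Finset.sum_comm]
    refine Finset.sum_congr rfl fun j _ => Finset.sum_congr rfl fun k _ => ?_
    ring
  rw [hq, h2, Complex.mul_conj, Complex.ofReal_re, h1, Complex.normSq_apply]
  simp
  ring

end Vale.Agent.P253Z.Smooth
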