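import Vale.Agent.P253Z.Smooth.Hq

/-!
# P253Z: mollification in a ball
-/

open scoped ContDiff ComplexOrder Topology Convolution
open Set Filter MeasureTheory Metric

noncomputable section

namespace Vale.Agent.P253Z.Smooth

open Vale.Agent.P272.K

variable {n : ℕ}

theorem two_le_infty : (2 : WithTop ℕ∞) ≤ ∞ := WithTop.coe_le_coe.2 le_top

/-- a smooth average of translates of `g` -/
structure Moll (g : Cm n → ℝ) (z₀ : Cm n) (r₁ δ η : ℝ) (ρ G : Cm n → ℝ) : Prop where
  pos : 0 < δ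
  cont : Continuous ρ
  cpt : HasCompactSupport ρ
  nonneg : ∀ y, 0 ≤ ρ y
  int : ∫ y, ρ y = 1
  supp : ∀ y, ρ y ≠ 0 → ‖y‖ < δ
  Gcont : Continuous G
  eq : EqOn G g (ball z₀ (r₁ + 2 * δ))
  sm : ContDiff ℝ ∞ fun z => ∫ y, ρ y * G (z - y)
  near : ∀ z ∈ ball z₀ r₁, |(∫ y, ρ y * G (z - y)) - g z| ≤ η

theorem exists_moll {g : Cm n → ℝ} {z₀ : Cm n} {r r₁ η : ℝ} (hg : ContinuousOn g (ball z₀ r))
    (hr : r₁ < r) (hη : 0 < η) : ∃ δ ρ G, r₁ + 2 * δ < r ∧ Moll g z₀ r₁ δ η ρ G := by
  set r₂ := (r₁ + r) / 2 with hr₂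
  have h1 : closedBall z₀ r₂ ⊆ ball z₀ r := closedBall_subset_ball (by linarith)
  obtain ⟨G, hG⟩ := ContinuousMap.exists_restrict_eq (s := closedBall z₀ r₂) isClosed_closedBall
    ⟨_, (hg.mono h1).domRestrict⟩
  have hGe : EqOn G g (closedBall z₀ r₂) := fun z hz => DFunLike.congr_fun hG ⟨z, hz⟩
  have hu := (isCompact_closedBall z₀ r₂).uniformContinuousOn_of_continuous
    G.continuous.continuousOn
  obtain ⟨δ₀, hδ₀, hu⟩ := Metric.uniformContinuousOn_iff.1 hu η hη
  set δ := min δ₀ ((r - r₁) / 4) with hδ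
  have hδ0 : 0 < δ := lt_min hδ₀ (by linarith)
  have hδ1 : δ ≤ δ₀ := min_le_left _ _
  have hδ2 : δ ≤ (r - r₁) / 4 := min_le_right _ _
  let φ : ContDiffBump (0 : Cm n) := ⟨δ / 2, δ, half_pos hδ0, half_lt_self hδ0⟩
  refine ⟨δ, φ.normed volume, G, by linarith, hδ0, φ.continuous_normed, φ.hasCompactSupport_normed,
    φ.nonneg_normed, φ.integral_normed, fun y hy => ?_, G.continuous,
    hGe.mono (ball_subset_closedBall.trans (closedBall_subset_closedBall (by linarith))), ?_, ?_⟩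
  · have h2 : y ∈ Function.support (φ.normed volume) := hy
    rw [φ.support_normed_eq] at h2
    exact mem_ball_zero_iff.1 h2
  · exact φ.hasCompactSupport_normed.contDiff_convolution_left (ContinuousLinearMap.lsmul ℝ ℝ)
      φ.contDiff_normed (G.continuous.locallyIntegrable (μ := volume))
  · intro z hz
    have hz' : z ∈ closedBall z₀ r₂ :=
      (ball_subset_closedBall.trans (closedBall_subset_closedBall (by linarith))) hz
    have h2 := φ.dist_normed_convolution_le (μ := volume) (g := G) (x₀ := z) (ε := η)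
      G.continuous.aestronglyMeasurable fun x hx => by
        have h3 : dist x z < δ := hx
        refine (hu x ?_ z hz' (h3.trans_le hδ1)).le
        have h4 := dist_triangle x z z₀
        have h5 : dist z z₀ < r₁ := hz
        rw [mem_closedBall]
        linarith
    rw [← hGe hz']
    exact h2

namespace Moll

variable {g : Cm n → ℝ} {z₀ : Cm n} {r₁ δ η : ℝ} {ρ G : Cm n → ℝ}

theorem integrable (h : Moll g z₀ r₁ δ η ρ G) {F : Cm n → ℝ} (hF : Continuous F) :
    Integrable fun y => ρ y * F y :=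
  (h.cont.mul hF).integrable_of_hasCompactSupport h.cpt.mul_right

theorem avg_le (h : Moll g z₀ r₁ δ η ρ G) {F F' : Cm n → ℝ} (hF : Continuous F)
    (hF' : Continuous F') {c : ℝ} (hle : ∀ y, ‖y‖ < δ → F y + c ≤ F' y) :
    (∫ y, ρ y * F y) + c ≤ ∫ y, ρ y * F' y := by
  have h1 : ∫ y, ρ y * (F y + c) = (∫ y, ρ y * F y) + c := by
    simp only [mul_add]
    rw [integral_add (h.integrable hF) (h.integrable continuous_const), integral_mul_const, h.int,
      one_mul]
  rw [← h1]
  refine integral_mono (h.integrable (hF.add continuous_const)) (h.integrable hF') fun y => ?_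
  by_cases h0 : ρ y = 0
  · simp [h0]
  · exact mul_le_mul_of_nonneg_left (hle y (h.supp y h0)) (h.nonneg y)

theorem circle (h : Moll g z₀ r₁ δ η ρ G) (z ξ : Cm n) :
    Real.circleAverage (fun ζ : ℂ => ∫ y, ρ y * G (z + ζ • ξ - y)) 0 1 =
      ∫ y, ρ y * Real.circleAverage (fun ζ : ℂ => G (z - y + ζ • ξ)) 0 1 := by
  have hc := h.cont
  have hG := h.Gcont
  have hi : Integrable (Function.uncurry fun (θ : ℝ) (y : Cm n) =>
      ρ y * G (z + circleMap 0 1 θ • ξ - y))
      ((volume.restrict (uIoc 0 (2 * Real.pi))).prod volume) := by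
    have h1 : Continuous (Function.uncurry fun (θ : ℝ) (y : Cm n) =>
        ρ y * G (z + circleMap 0 1 θ • ξ - y)) := by
      have := continuous_circleMap 0 1
      unfold Function.uncurry
      fun_prop
    have h2 : IntegrableOn (Function.uncurry fun (θ : ℝ) (y : Cm n) =>
        ρ y * G (z + circleMap 0 1 θ • ξ - y)) (uIcc 0 (2 * Real.pi) ×ˢ tsupport ρ)
        (volume.prod volume) :=
      h1.continuousOn.integrableOn_compact (isCompact_uIcc.prod h.cpt)
    have h3 := (h2.mono_set (prod_mono uIoc_subset_uIcc subset_rfl)).of_forall_sdiff_eq_zero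
      (t := uIoc 0 (2 * Real.pi) ×ˢ univ) (measurableSet_uIoc.prod MeasurableSet.univ) (by
        rintro ⟨θ, y⟩ ⟨⟨h4, -⟩, h5⟩
        have h6 : y ∉ tsupport ρ := fun h7 => h5 ⟨h4, h7⟩
        simp [Function.uncurry, image_eq_zero_of_notMem_tsupport h6])
    rwa [IntegrableOn, ← Measure.prod_restrict, Measure.restrict_univ] at h3
  simp only [Real.circleAverage_def, smul_eq_mul]
  rw [intervalIntegral_integral_swap hi, ← integral_const_mul]
  refine integral_congr_ae (Eventually.of_forall fun y => ?_)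
  simp only [intervalIntegral.integral_const_mul, add_sub_right_comm]
  ring

/-- mollification of a function with a sub-mean value property -/
theorem levi (h : Moll g z₀ r₁ δ η ρ G) {r : ℝ} (hδ : r₁ + 2 * δ < r)
    {A : Matrix (Fin n) (Fin n) ℂ}
    (hsub : ∀ z ξ : Cm n, (∀ ζ ∈ closedBall (0 : ℂ) 1, z + ζ • ξ ∈ ball z₀ r) →
      g z + hq A ξ ≤ Real.circleAverage (fun ζ : ℂ => g (z + ζ • ξ)) 0 1) {z : Cm n}
    (hz : z ∈ ball z₀ r₁) (ξ : Cm n) :
    hq A ξ ≤ hq (cHess (fun z => ∫ y, ρ y * G (z - y)) z) ξ := by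
  have hG := h.Gcont
  refine hq_le_of_subMean (h.sm.of_le two_le_infty) h.pos (fun ξ hξ => ?_) ξ
  rw [h.circle]
  refine h.avg_le (by fun_prop) ?_ fun y hy => ?_
  · simp only [Real.circleAverage_def, smul_eq_mul]
    refine continuous_const.mul
      (intervalIntegral.continuous_parametric_intervalIntegral_of_continuous'
      (f := fun (y : Cm n) (θ : ℝ) => G (z - y + circleMap 0 1 θ • ξ)) ?_ _ _)
    have := continuous_circleMap 0 1
    unfold Function.uncurry
    fun_prop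
  · have h1 : ∀ ζ ∈ closedBall (0 : ℂ) 1, z - y + ζ • ξ ∈ ball z₀ (r₁ + 2 * δ) := by
      intro ζ hζ
      have h2 : ‖ζ‖ ≤ 1 := mem_closedBall_zero_iff.1 hζ
      have h3 : ‖ζ • ξ‖ ≤ ‖ξ‖ := by
        rw [norm_smul]
        exact mul_le_of_le_one_left (norm_nonneg _) h2
      have h4 : ‖z - z₀‖ < r₁ := mem_ball_iff_norm.1 hz
      rw [mem_ball_iff_norm, show z - y + ζ • ξ - z₀ = (z - z₀) - y + ζ • ξ by abel]
      have h5 := norm_add_le (z - z₀ - y) (ζ • ξ)
      have h6 := norm_sub_le (z - z₀) y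
      linarith
    have h7 := hsub (z - y) ξ fun ζ hζ => ball_subset_ball hδ.le (h1 ζ hζ)
    have h8 : G (z - y) = g (z - y) := h.eq (by simpa using h1 0 (by simp))
    rw [h8]
    refine h7.trans (le_of_eq (Real.circleAverage_congr_sphere fun ζ hζ => ?_))
    exact (h.eq (h1 ζ (sphere_subset_closedBall (by simpa using hζ)))).symm

/-- mollification of a Lipschitz function -/
theorem lip (h : Moll g z₀ r₁ δ η ρ G) {r : ℝ} (hδ : r₁ + 2 * δ < r) {N : Cm n → ℝ}
    (hN : ∀ (t : ℝ) ξ, 0 < t → N (t • ξ) = t * N ξ)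
    (hlip : ∀ a ∈ ball z₀ r, ∀ b ∈ ball z₀ r, g b - g a ≤ N (b - a)) {z : Cm n}
    (hz : z ∈ ball z₀ r₁) (ξ : Cm n) :
    fderiv ℝ (fun z => ∫ y, ρ y * G (z - y)) z ξ ≤ N ξ := by
  have hG := h.Gcont
  set v : Cm n → ℝ := fun z => ∫ y, ρ y * G (z - y) with hv
  have hd : HasLineDerivAt ℝ v (fderiv ℝ v z ξ) z ξ :=
    ((h.sm.differentiable (by simp)) z).hasFDerivAt.hasLineDerivAt ξ
  refine le_of_tendsto hd.tendsto_slope_zero_right ?_
  have h1 : ∀ᶠ t : ℝ in 𝓝 0, ‖t • ξ‖ < δ := by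
    have h2 : Continuous fun t : ℝ => ‖t • ξ‖ := by fun_prop
    exact h2.continuousAt.eventually_lt continuousAt_const (by simpa using h.pos)
  filter_upwards [h1.filter_mono nhdsWithin_le_nhds, self_mem_nhdsWithin] with t ht ht0
  have ht0' : 0 < t := ht0
  have h3 : v (z + t • ξ) + -(t * N ξ) ≤ v z := by
    refine h.avg_le (by fun_prop) (by fun_prop) fun y hy => ?_
    have h4 : ‖z - z₀‖ < r₁ := mem_ball_iff_norm.1 hz
    have h6 := norm_sub_le (z - z₀) y
    have h5 : z - y ∈ ball z₀ (r₁ + 2 * δ) := by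
      rw [mem_ball_iff_norm, sub_right_comm]
      linarith [h.pos]
    have h7 : z + t • ξ - y ∈ ball z₀ (r₁ + 2 * δ) := by
      rw [mem_ball_iff_norm, show z + t • ξ - y - z₀ = (z - z₀) - y + t • ξ by abel]
      have h8 := norm_add_le (z - z₀ - y) (t • ξ)
      linarith
    have h9 := hlip _ (ball_subset_ball hδ.le h5) _ (ball_subset_ball hδ.le h7)
    rw [show z + t • ξ - y - (z - y) = t • ξ by abel, hN t ξ ht0'] at h9
    rw [h.eq h5, h.eq h7]
    linarith
  rw [smul_eq_mul, inv_mul_le_iff₀ ht0']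
  linarith

end Moll

end Vale.Agent.P253Z.Smooth
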